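import Mathlib

/-!
# Lipschitz-free spaces over nets of Banach spaces: bounded approximation

`Lip0 o` is the normed space of real Lipschitz functions vanishing at the base point `o`, with the
Lipschitz constant as a norm; `delta o x` is evaluation at `x`; `FreeSpace o` is the closed span of
the evaluations in the dual of `Lip0 o`.
-/

namespace Vale.Agent.P090

open Set Metric

noncomputable section

section Basic

variable {M : Type*} [MetricSpace M]

/-- The real Lipschitz functions on `M` vanishing at `o`, as a linear subspace of `M → ℝ`. -/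
def lip0 (o : M) : Submodule ℝ (M → ℝ) where
  carrier := {f | f o = 0 ∧ ∃ K : NNReal, LipschitzWith K f}
  add_mem' := by
    rintro f g ⟨hf0, K, hK⟩ ⟨hg0, K', hK'⟩
    exact ⟨by simp [hf0, hg0], K + K', hK.add hK'⟩
  zero_mem' := ⟨rfl, 0, LipschitzWith.const 0⟩
  smul_mem' := by
    rintro c f ⟨hf0, K, hK⟩
    refine ⟨by simp [hf0], ‖c‖₊ * K, LipschitzWith.of_dist_le_mul fun x y => ?_⟩
    have h := hK.dist_le_mul x y
    simp only [Pi.smul_apply, smul_eq_mul, Real.dist_eq] at h ⊢
    rw [← mul_sub, abs_mul]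
    push_cast
    rw [Real.norm_eq_abs, mul_assoc]
    exact mul_le_mul_of_nonneg_left h (abs_nonneg c)

/-- `Lip_0(M)`, as a type of its own. -/
def Lip0 (o : M) : Type _ := lip0 o

instance (o : M) : AddCommGroup (Lip0 o) := Submodule.addCommGroup (lip0 o)
instance (o : M) : Module ℝ (Lip0 o) := Submodule.module (lip0 o)

variable {o : M}

/-- The underlying function of an element of `Lip0 o`. -/
def Lip0.fn (f : Lip0 o) : M → ℝ := f.1

lemma Lip0.fn_base (f : Lip0 o) : f.fn o = 0 := f.2.1
lemma Lip0.fn_lip (f : Lip0 o) : ∃ K : NNReal, LipschitzWith K f.fn := f.2.2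
@[simp] lemma Lip0.fn_add (f g : Lip0 o) (x : M) : (f + g).fn x = f.fn x + g.fn x := rfl
@[simp] lemma Lip0.fn_smul (c : ℝ) (f : Lip0 o) (x : M) : (c • f).fn x = c * f.fn x := rfl

lemma Lip0.ext' {f g : Lip0 o} (h : ∀ x, f.fn x = g.fn x) : f = g :=
  Subtype.ext (funext h)

/-- The Lipschitz constant: the norm of `Lip_0(M)`. -/
instance (o : M) : Norm (Lip0 o) :=
  ⟨fun f => ⨆ p : M × M, |f.fn p.1 - f.fn p.2| / dist p.1 p.2⟩

lemma Lip0.norm_def (f : Lip0 o) : ‖f‖ = ⨆ p : M × M, |f.fn p.1 - f.fn p.2| / dist p.1 p.2 := rfl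

lemma Lip0.bdd (f : Lip0 o) :
    BddAbove (range fun p : M × M => |f.fn p.1 - f.fn p.2| / dist p.1 p.2) := by
  obtain ⟨K, hK⟩ := f.fn_lip
  refine ⟨K, ?_⟩
  rintro _ ⟨p, rfl⟩
  exact div_le_of_le_mul₀ dist_nonneg K.2 (by simpa [Real.dist_eq] using hK.dist_le_mul p.1 p.2)

/-- The defining inequality of the Lipschitz constant. -/
lemma Lip0.abs_sub_le (f : Lip0 o) (x y : M) : |f.fn x - f.fn y| ≤ ‖f‖ * dist x y := by
  by_cases h : x = y
  · subst h; simp
  · have hd : 0 < dist x y := dist_pos.2 h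
    have := le_ciSup f.bdd (x, y)
    rw [div_le_iff₀ hd] at this
    exact this

lemma Lip0.norm_le_of (f : Lip0 o) {K : ℝ} (hK : 0 ≤ K)
    (h : ∀ x y, |f.fn x - f.fn y| ≤ K * dist x y) : ‖f‖ ≤ K := by
  have : Nonempty (M × M) := ⟨(o, o)⟩
  exact ciSup_le fun p => div_le_of_le_mul₀ dist_nonneg hK (h p.1 p.2)

lemma Lip0.norm_nonneg' (f : Lip0 o) : 0 ≤ ‖f‖ :=
  Real.iSup_nonneg fun _ => div_nonneg (abs_nonneg _) dist_nonneg

lemma Lip0.smul_le (c : ℝ) (f : Lip0 o) : ‖c • f‖ ≤ |c| * ‖f‖ := by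
  refine Lip0.norm_le_of _ (mul_nonneg (abs_nonneg _) f.norm_nonneg') fun x y => ?_
  simp only [Lip0.fn_smul]
  rw [← mul_sub, abs_mul, mul_assoc]
  exact mul_le_mul_of_nonneg_left (f.abs_sub_le x y) (abs_nonneg c)

/-- The norm axioms of the Lipschitz constant. -/
lemma lipCore (o : M) : NormedSpace.Core ℝ (Lip0 o) where
  norm_nonneg f := f.norm_nonneg'
  norm_smul c f := by
    apply le_antisymm (Lip0.smul_le c f)
    by_cases hc : c = 0
    · subst hc; simp [Lip0.norm_nonneg']
    · have h := Lip0.smul_le c⁻¹ (c • f)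
      rw [inv_smul_smul₀ hc, abs_inv] at h
      have hc' : 0 < |c| := abs_pos.2 hc
      calc |c| * ‖f‖ ≤ |c| * (|c|⁻¹ * ‖c • f‖) := mul_le_mul_of_nonneg_left h hc'.le
        _ = ‖c • f‖ := by field_simp
  norm_triangle f g := by
    refine Lip0.norm_le_of _ (add_nonneg f.norm_nonneg' g.norm_nonneg') fun x y => ?_
    simp only [Lip0.fn_add]
    have h1 := f.abs_sub_le x y
    have h2 := g.abs_sub_le x y
    have h3 : |f.fn x + g.fn x - (f.fn y + g.fn y)| ≤ |f.fn x - f.fn y| + |g.fn x - g.fn y| := by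
      rw [show f.fn x + g.fn x - (f.fn y + g.fn y) = (f.fn x - f.fn y) + (g.fn x - g.fn y) by ring]
      exact abs_add_le _ _
    linarith
  norm_eq_zero_iff f := by
    constructor
    · intro h
      apply Lip0.ext'
      intro x
      have h1 := f.abs_sub_le x o
      rw [h, zero_mul, f.fn_base, sub_zero] at h1
      have : f.fn x = 0 := abs_nonpos_iff.1 h1
      rw [this]; rfl
    · rintro rfl
      refine le_antisymm (Lip0.norm_le_of _ le_rfl fun x y => ?_) (Lip0.norm_nonneg' _)
      have h0 : ∀ z, (0 : Lip0 o).fn z = 0 := fun _ => rfl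
      simp [h0]

instance (o : M) : NormedAddCommGroup (Lip0 o) := NormedAddCommGroup.ofCore (lipCore o)
instance (o : M) : NormedSpace ℝ (Lip0 o) := NormedSpace.ofCore (lipCore o)

/-- Evaluation at `x`, as a bounded functional on `Lip_0(M)`. -/
def delta (o : M) (x : M) : StrongDual ℝ (Lip0 o) :=
  LinearMap.mkContinuous
    { toFun := fun f => f.fn x, map_add' := fun _ _ => rfl, map_smul' := fun _ _ => rfl } (dist x o)
    (fun f => by
      have h := f.abs_sub_le x o
      rw [f.fn_base, sub_zero] at h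
      change |f.fn x| ≤ dist x o * ‖f‖
      rw [mul_comm]; exact h)

@[simp] lemma delta_apply (x : M) (f : Lip0 o) : delta o x f = f.fn x := rfl

/-- The closed linear span of the evaluations in the dual of `Lip_0(M)`. -/
def freeSubmodule (o : M) : Submodule ℝ (StrongDual ℝ (Lip0 o)) :=
  (Submodule.span ℝ (range (delta o))).topologicalClosure

/-- The Lipschitz-free space `F(M)`: that closed span, with the norm of the dual of `Lip_0(M)`. -/
def FreeSpace (o : M) : Type _ := freeSubmodule o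

instance (o : M) : NormedAddCommGroup (FreeSpace o) :=
  Submodule.normedAddCommGroup (freeSubmodule o)
instance (o : M) : NormedSpace ℝ (FreeSpace o) :=
  Submodule.normedSpace (freeSubmodule o)


end Basic

/-! ### Bounded approximation -/

section Banach

/-- The bounded approximation property (for some finite constant). -/
def HasBAP (E : Type*) [NormedAddCommGroup E] [NormedSpace ℝ E] : Prop :=
  ∃ lam : ℝ, ∀ C : Set E, IsCompact C → ∀ ε > 0, ∃ T : E →L[ℝ] E,
    FiniteDimensional ℝ (LinearMap.range (T : E →ₗ[ℝ] E)) ∧ ‖T‖ ≤ lam ∧ ∀ u ∈ C, ‖T u - u‖ < ε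

variable {X : Type*} [NormedAddCommGroup X] [NormedSpace ℝ X]

/-- A net of a normed space: a uniformly separated set which is relatively dense. -/
def IsNet (N : Set X) : Prop :=
  ∃ θ > 0, ∃ ρ : ℝ, (∀ x ∈ N, ∀ y ∈ N, x ≠ y → θ ≤ ‖x - y‖) ∧ ∀ y : X, ∃ x ∈ N, ‖y - x‖ ≤ ρ

/-- The coarse (not necessarily linear, not necessarily continuous) bounded approximation
property of a normed space: self-maps with finite-dimensional range, Lipschitz with a uniform
constant up to an arbitrarily small additive error, approximating the identity on compact sets. -/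
def CoarseBAP (X : Type*) [NormedAddCommGroup X] [NormedSpace ℝ X] : Prop :=
  ∃ lam : ℝ, ∀ C : Set X, IsCompact C → ∀ η > 0, ∃ R : X → X,
    FiniteDimensional ℝ (Submodule.span ℝ (range R)) ∧
    (∀ x y, ‖R x - R y‖ ≤ lam * (‖x - y‖ + η)) ∧ ∀ c ∈ C, ‖R c - c‖ ≤ η

end Banach

end

end Vale.Agent.P090
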