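import Vale.Agent.P090.Defs

/-!
# Lipschitz-free spaces over nets of Banach spaces: proofs
-/

namespace Vale.Agent.P090

open Set Metric

noncomputable section

section Basic

variable {M : Type*} [MetricSpace M] {o : M}

lemma delta_sub_norm (x y : M) : ‖delta o x - delta o y‖ ≤ dist x y := by
  refine ContinuousLinearMap.opNorm_le_bound _ dist_nonneg fun f => ?_
  have h := f.abs_sub_le x y
  simpa [Real.norm_eq_abs, mul_comm] using h

lemma delta_mem (x : M) : delta o x ∈ freeSubmodule o :=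
  Submodule.le_topologicalClosure _ (Submodule.subset_span ⟨x, rfl⟩)

/-- The element `δ_x` of `F(M)`. -/
def ofPoint (o : M) (x : M) : FreeSpace o := ⟨delta o x, delta_mem x⟩

/-- Precomposition on duals. -/
def adj {E F : Type*} [NormedAddCommGroup E] [NormedSpace ℝ E] [NormedAddCommGroup F]
    [NormedSpace ℝ F] (P : E →L[ℝ] F) : StrongDual ℝ F →L[ℝ] StrongDual ℝ E :=
  LinearMap.mkContinuous
    { toFun := fun μ => μ.comp P
      map_add' := fun _ _ => rfl
      map_smul' := fun _ _ => rfl } ‖P‖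
    (fun μ => by
      have := ContinuousLinearMap.opNorm_comp_le μ P
      change ‖μ.comp P‖ ≤ ‖P‖ * ‖μ‖
      rw [mul_comm]; exact this)

lemma adj_norm_le {E F : Type*} [NormedAddCommGroup E] [NormedSpace ℝ E] [NormedAddCommGroup F]
    [NormedSpace ℝ F] (P : E →L[ℝ] F) : ‖adj P‖ ≤ ‖P‖ :=
  LinearMap.mkContinuous_norm_le _ (norm_nonneg _) _

@[simp] lemma adj_apply {E F : Type*} [NormedAddCommGroup E] [NormedSpace ℝ E]
    [NormedAddCommGroup F] [NormedSpace ℝ F] (P : E →L[ℝ] F) (μ : StrongDual ℝ F) (e : E) :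
    adj P μ e = μ (P e) := rfl

/-- Composition with a Lipschitz self-map that fixes the base point. -/
def pull (r : M → M) (h0 : r o = o) (L : ℝ) (hL : 0 ≤ L)
    (hr : ∀ x y, dist (r x) (r y) ≤ L * dist x y) : Lip0 o →L[ℝ] Lip0 o :=
  LinearMap.mkContinuous
    { toFun := fun f => ⟨fun x => f.fn (r x), by
          refine ⟨by simpa [h0] using f.fn_base, ?_⟩
          obtain ⟨K, hK⟩ := f.fn_lip
          refine ⟨K * ⟨L, hL⟩, LipschitzWith.of_dist_le_mul fun x y => ?_⟩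
          have h1 := hK.dist_le_mul (r x) (r y)
          have h2 := hr x y
          calc dist (f.fn (r x)) (f.fn (r y)) ≤ K * dist (r x) (r y) := h1
            _ ≤ K * (L * dist x y) := mul_le_mul_of_nonneg_left h2 K.2
            _ = K * L * dist x y := by ring⟩
      map_add' := fun _ _ => rfl
      map_smul' := fun _ _ => rfl } L
    (fun f => by
      refine Lip0.norm_le_of _ (mul_nonneg hL f.norm_nonneg') fun x y => ?_
      have h1 := f.abs_sub_le (r x) (r y)
      have h2 := hr x y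
      calc |f.fn (r x) - f.fn (r y)| ≤ ‖f‖ * dist (r x) (r y) := h1
        _ ≤ ‖f‖ * (L * dist x y) := mul_le_mul_of_nonneg_left h2 f.norm_nonneg'
        _ = L * ‖f‖ * dist x y := by ring)

lemma pull_norm_le (r : M → M) (h0 : r o = o) (L : ℝ) (hL : 0 ≤ L)
    (hr : ∀ x y, dist (r x) (r y) ≤ L * dist x y) : ‖pull r h0 L hL hr‖ ≤ L :=
  LinearMap.mkContinuous_norm_le _ hL _

lemma adj_pull_delta (r : M → M) (h0 : r o = o) (L : ℝ) (hL : 0 ≤ L)
    (hr : ∀ x y, dist (r x) (r y) ≤ L * dist x y) (x : M) :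
    adj (pull r h0 L hL hr) (delta o x) = delta o (r x) := rfl

lemma fd_comap {E F : Type*} [AddCommGroup E] [Module ℝ E] [AddCommGroup F] [Module ℝ F]
    (j : E →ₗ[ℝ] F) (hj : Function.Injective j) (W : Submodule ℝ F) [FiniteDimensional ℝ W] :
    FiniteDimensional ℝ (W.comap j) := by
  let g : W.comap j →ₗ[ℝ] W :=
    { toFun := fun x => ⟨j x.1, x.2⟩
      map_add' := by intro a b; ext; simp
      map_smul' := by intro c a; ext; simp }
  refine FiniteDimensional.of_injective g ?_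
  intro a b hab
  apply Subtype.ext
  apply hj
  simpa [g] using congrArg Subtype.val hab

lemma fd_sub_of_val {D E : Type*} [NormedAddCommGroup D] [NormedSpace ℝ D] [NormedAddCommGroup E]
    [NormedSpace ℝ E] (i : E →ₗ[ℝ] D) (hi : Function.Injective i) (W : Submodule ℝ D)
    (hW : FiniteDimensional ℝ W) (U : Submodule ℝ E) (h : ∀ x ∈ U, i x ∈ W) :
    FiniteDimensional ℝ U := by
  have := fd_comap i hi W
  exact Submodule.finiteDimensional_of_le (S₂ := W.comap i) h

/-- A Lipschitz self-map with finite range linearises to a finite-rank operator of `F(M)`. -/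
lemma exists_op (r : M → M) (h0 : r o = o) (L : ℝ) (hL : 0 ≤ L)
    (hr : ∀ x y, dist (r x) (r y) ≤ L * dist x y) (hfin : (range r).Finite) :
    ∃ T : FreeSpace o →L[ℝ] FreeSpace o,
      FiniteDimensional ℝ (LinearMap.range (T : FreeSpace o →ₗ[ℝ] FreeSpace o)) ∧ ‖T‖ ≤ L ∧
      ∀ u : FreeSpace o, (T u).1 = adj (pull r h0 L hL hr) u.1 := by
  set rhat := adj (pull r h0 L hL hr) with hrhat
  let W : Submodule ℝ (StrongDual ℝ (Lip0 o)) := Submodule.span ℝ (delta o '' range r)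
  have hWfd : FiniteDimensional ℝ W := FiniteDimensional.span_of_finite ℝ (hfin.image _)
  have hWc : IsClosed (W : Set (StrongDual ℝ (Lip0 o))) := W.closed_of_finiteDimensional
  have hspan : Submodule.span ℝ (range (delta o)) ≤
      W.comap (rhat : StrongDual ℝ (Lip0 o) →ₗ[ℝ] StrongDual ℝ (Lip0 o)) := by
    rw [Submodule.span_le]
    rintro _ ⟨x, rfl⟩
    exact Submodule.subset_span ⟨r x, ⟨x, rfl⟩, rfl⟩
  have hF : freeSubmodule o ≤
      W.comap (rhat : StrongDual ℝ (Lip0 o) →ₗ[ℝ] StrongDual ℝ (Lip0 o)) :=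
    Submodule.topologicalClosure_minimal _ hspan (hWc.preimage rhat.continuous)
  have hWF : W ≤ freeSubmodule o :=
    (Submodule.span_mono (image_subset_range _ _)).trans (Submodule.le_topologicalClosure _)
  have hrnorm : ‖rhat‖ ≤ L := (adj_norm_le _).trans (pull_norm_le r h0 L hL hr)
  let T : FreeSpace o →L[ℝ] FreeSpace o :=
    LinearMap.mkContinuous
      { toFun := fun u => ⟨rhat u.1, hWF (hF u.2)⟩
        map_add' := fun a b => Subtype.ext (map_add rhat a.1 b.1)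
        map_smul' := fun c a => Subtype.ext (map_smul rhat c a.1) } L
      (fun u => by
        change ‖rhat u.1‖ ≤ L * ‖u.1‖
        exact (rhat.le_opNorm _).trans (mul_le_mul_of_nonneg_right hrnorm (norm_nonneg _)))
  refine ⟨T, ?_, LinearMap.mkContinuous_norm_le _ hL _, fun _ => rfl⟩
  have hmem : ∀ x ∈ LinearMap.range (T : FreeSpace o →ₗ[ℝ] FreeSpace o), x.1 ∈ W := by
    rintro _ ⟨u, rfl⟩
    exact hF u.2
  let i : FreeSpace o →ₗ[ℝ] StrongDual ℝ (Lip0 o) :=
    { toFun := Subtype.val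
      map_add' := fun _ _ => rfl
      map_smul' := fun _ _ => rfl }
  exact fd_sub_of_val (D := StrongDual ℝ (Lip0 o)) (E := FreeSpace o) i Subtype.val_injective W hWfd
    _ hmem

lemma exists_finset_of_mem_span {v : StrongDual ℝ (Lip0 o)}
    (hv : v ∈ Submodule.span ℝ (range (delta o))) :
    ∃ A : Finset M, v ∈ Submodule.span ℝ (delta o '' (A : Set M)) := by
  classical
  induction hv using Submodule.span_induction with
  | mem x hx =>
    obtain ⟨y, rfl⟩ := hx
    exact ⟨{y}, Submodule.subset_span ⟨y, by simp, rfl⟩⟩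
  | zero => exact ⟨∅, Submodule.zero_mem _⟩
  | add x y _ _ hx hy =>
    obtain ⟨A, hA⟩ := hx
    obtain ⟨B, hB⟩ := hy
    refine ⟨A ∪ B, Submodule.add_mem _ (Submodule.span_mono ?_ hA) (Submodule.span_mono ?_ hB)⟩
    · exact image_mono (by simp)
    · exact image_mono (by simp)
  | smul c x _ hx =>
    obtain ⟨A, hA⟩ := hx
    exact ⟨A, Submodule.smul_mem _ c hA⟩

end Basic

/-! ### Bounded approximation -/

section Banach

variable {X : Type*} [NormedAddCommGroup X] [NormedSpace ℝ X]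

theorem coarse_of_bap (h : HasBAP X) : CoarseBAP X := by
  obtain ⟨lam, hlam⟩ := h
  refine ⟨|lam|, fun C hC η hη => ?_⟩
  obtain ⟨T, hfd, hT, hclose⟩ := hlam C hC η hη
  refine ⟨T, ?_, fun x y => ?_, fun c hc => (hclose c hc).le⟩
  · have : Submodule.span ℝ (range T) = LinearMap.range (T : X →ₗ[ℝ] X) := by
      have h2 : (range T : Set X) = (LinearMap.range (T : X →ₗ[ℝ] X) : Set X) := by
        ext z; simp
      rw [h2, Submodule.span_eq]
    rw [this]
    exact hfd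
  · rw [← map_sub]
    have hTa : ‖T‖ ≤ |lam| := hT.trans (le_abs_self _)
    calc ‖T (x - y)‖ ≤ ‖T‖ * ‖x - y‖ := T.le_opNorm _
      _ ≤ |lam| * ‖x - y‖ := mul_le_mul_of_nonneg_right hTa (norm_nonneg _)
      _ ≤ |lam| * (‖x - y‖ + η) :=
        mul_le_mul_of_nonneg_left (by linarith) (abs_nonneg _)

/-- Radial truncation. -/
def trunc (D : ℝ) (u : X) : X := if ‖u‖ ≤ D then u else (D / ‖u‖) • u

lemma trunc_of_le {D : ℝ} {u : X} (h : ‖u‖ ≤ D) : trunc D u = u := if_pos h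

lemma trunc_of_gt {D : ℝ} {u : X} (h : D < ‖u‖) : trunc D u = (D / ‖u‖) • u := if_neg (not_le.2 h)

lemma trunc_norm {D : ℝ} (hD : 0 ≤ D) (u : X) : ‖trunc D u‖ ≤ D := by
  by_cases h : ‖u‖ ≤ D
  · rwa [trunc_of_le h]
  · push Not at h
    have hu : 0 < ‖u‖ := hD.trans_lt h
    rw [trunc_of_gt h, norm_smul, Real.norm_of_nonneg (div_nonneg hD hu.le)]
    rw [div_mul_cancel₀ _ hu.ne']

lemma trunc_mem (Z : Submodule ℝ X) (D : ℝ) {u : X} (hu : u ∈ Z) : trunc D u ∈ Z := by
  by_cases h : ‖u‖ ≤ D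
  · rwa [trunc_of_le h]
  · rw [trunc_of_gt (not_le.1 h)]
    exact Z.smul_mem _ hu

lemma trunc_aux1 {D : ℝ} {u v : X} (hu : ‖u‖ ≤ D) (hv : D < ‖v‖) (hD : 0 ≤ D) :
    ‖u - (D / ‖v‖) • v‖ ≤ 2 * ‖u - v‖ := by
  have hv0 : 0 < ‖v‖ := hD.trans_lt hv
  have h1 : ‖v - (D / ‖v‖) • v‖ = ‖v‖ - D := by
    have : v - (D / ‖v‖) • v = (1 - D / ‖v‖) • v := by rw [sub_smul, one_smul]
    rw [this, norm_smul, Real.norm_of_nonneg]
    · field_simp
    · rw [sub_nonneg, div_le_one hv0]; exact hv.le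
  have h2 : ‖u - (D / ‖v‖) • v‖ ≤ ‖u - v‖ + ‖v - (D / ‖v‖) • v‖ := norm_sub_le_norm_sub_add_norm_sub _ _ _
  have h3 : ‖v‖ - ‖u‖ ≤ ‖u - v‖ := by
    rw [norm_sub_rev]; exact norm_sub_norm_le v u
  linarith

lemma trunc_aux2 {D : ℝ} {u v : X} (hu : D < ‖u‖) (hv : D < ‖v‖) (hD : 0 ≤ D) :
    ‖(D / ‖u‖) • u - (D / ‖v‖) • v‖ ≤ 2 * ‖u - v‖ := by
  have hu0 : 0 < ‖u‖ := hD.trans_lt hu
  have hv0 : 0 < ‖v‖ := hD.trans_lt hv
  set a := D / ‖u‖ with ha
  set b := D / ‖v‖ with hb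
  have ha0 : 0 ≤ a := div_nonneg hD hu0.le
  have ha1 : a ≤ 1 := by rw [ha, div_le_one hu0]; exact hu.le
  have e : a • u - b • v = a • (u - v) + (a - b) • v := by
    rw [smul_sub, sub_smul]; abel
  have h1 : ‖a • (u - v)‖ = a * ‖u - v‖ := by
    rw [norm_smul, Real.norm_of_nonneg ha0]
  have h2 : ‖(a - b) • v‖ = a * |‖v‖ - ‖u‖| := by
    rw [norm_smul, Real.norm_eq_abs]
    have : (a - b) * ‖v‖ = a * (‖v‖ - ‖u‖) := by
      rw [ha, hb]; field_simp
    rw [← abs_of_pos hv0, ← abs_mul, abs_of_pos hv0, this, abs_mul, abs_of_nonneg ha0]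
  have h3 : |‖v‖ - ‖u‖| ≤ ‖u - v‖ := by
    rw [norm_sub_rev u v]; exact abs_norm_sub_norm_le v u
  have h4 : 0 ≤ ‖u - v‖ := norm_nonneg _
  rw [e]
  calc ‖a • (u - v) + (a - b) • v‖ ≤ ‖a • (u - v)‖ + ‖(a - b) • v‖ := norm_add_le _ _
    _ = a * ‖u - v‖ + a * |‖v‖ - ‖u‖| := by rw [h1, h2]
    _ ≤ 1 * ‖u - v‖ + 1 * ‖u - v‖ := by
      have h5 : a * |‖v‖ - ‖u‖| ≤ a * ‖u - v‖ := mul_le_mul_of_nonneg_left h3 ha0
      have h6 : a * ‖u - v‖ ≤ 1 * ‖u - v‖ := mul_le_mul_of_nonneg_right ha1 h4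
      linarith
    _ = 2 * ‖u - v‖ := by ring

lemma trunc_lip {D : ℝ} (hD : 0 ≤ D) (u v : X) : ‖trunc D u - trunc D v‖ ≤ 2 * ‖u - v‖ := by
  by_cases hu : ‖u‖ ≤ D <;> by_cases hv : ‖v‖ ≤ D
  · rw [trunc_of_le hu, trunc_of_le hv]; linarith [norm_nonneg (u - v)]
  · rw [trunc_of_le hu, trunc_of_gt (not_le.1 hv)]
    exact trunc_aux1 hu (not_le.1 hv) hD
  · rw [trunc_of_gt (not_le.1 hu), trunc_of_le hv, norm_sub_rev, norm_sub_rev u v]
    exact trunc_aux1 hv (not_le.1 hu) hD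
  · rw [trunc_of_gt (not_le.1 hu), trunc_of_gt (not_le.1 hv)]
    exact trunc_aux2 (not_le.1 hu) (not_le.1 hv) hD

/-- The quantisation step. -/
lemma exists_retraction {N : Set X} {θ ρ lam : ℝ} (hθ : 0 < θ) (hlam : 0 ≤ lam)
    (hsep : ∀ x ∈ N, ∀ y ∈ N, x ≠ y → θ ≤ ‖x - y‖) (hdense : ∀ y : X, ∃ x ∈ N, ‖y - x‖ ≤ ρ)
    (R : X → X) (hfd : FiniteDimensional ℝ (Submodule.span ℝ (range R)))
    (hlip : ∀ x y, ‖R x - R y‖ ≤ lam * (‖x - y‖ + 1)) (A : Finset N)
    (hRA : ∀ a ∈ A, ‖R a - a‖ ≤ 1) :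
    ∃ r : N → N, (range r).Finite ∧ (∀ a ∈ A, r a = a) ∧
      ∀ x y, dist (r x) (r y) ≤ (2 * (ρ + 1) / θ + 2 * lam + 2 * lam / θ) * dist x y := by
  classical
  have hρ : 0 ≤ ρ := by
    obtain ⟨x, _, hx⟩ := hdense 0
    exact (norm_nonneg _).trans hx
  set D : ℝ := (∑ a ∈ A, ‖R a‖) + 1 with hD
  have hD0 : 0 < D := by
    have : 0 ≤ ∑ a ∈ A, ‖R a‖ := Finset.sum_nonneg fun _ _ => norm_nonneg _
    linarith
  have hDa : ∀ a ∈ A, ‖R a‖ ≤ D := by
    intro a ha
    have : ‖R a‖ ≤ ∑ a ∈ A, ‖R a‖ :=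
      Finset.single_le_sum (f := fun a : N => ‖R a‖) (fun _ _ => norm_nonneg _) ha
    linarith
  let Z := Submodule.span ℝ (range R)
  have : FiniteDimensional ℝ Z := hfd
  have : ProperSpace Z := FiniteDimensional.proper_real Z
  have hBc : IsCompact (Subtype.val '' closedBall (0 : Z) D) :=
    (isCompact_closedBall (0 : Z) D).image continuous_subtype_val
  obtain ⟨T, _, hTfin, hcov⟩ := hBc.finite_cover_balls (zero_lt_one)
  have key : ∀ x : X, ∃ t ∈ T, ‖trunc D (R x) - t‖ < 1 := by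
    intro x
    have hmem : trunc D (R x) ∈ Z := trunc_mem Z D (Submodule.subset_span ⟨x, rfl⟩)
    have hin : trunc D (R x) ∈ Subtype.val '' closedBall (0 : Z) D := by
      refine ⟨⟨_, hmem⟩, ?_, rfl⟩
      rw [mem_closedBall_zero_iff]
      exact trunc_norm hD0.le _
    obtain ⟨t, ht, hzt⟩ := mem_iUnion₂.1 (hcov hin)
    exact ⟨t, ht, by simpa [dist_eq_norm] using hzt⟩
  choose q hqT hq using key
  choose pi hpiN hpi using hdense
  let r : N → N := fun x => if x ∈ A then x else ⟨pi (q x), hpiN _⟩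
  have hrA : ∀ a ∈ A, r a = a := fun a ha => if_pos ha
  have hrn : ∀ x : N, x ∉ A → r x = ⟨pi (q x), hpiN _⟩ := fun x hx => if_neg hx
  have hnear : ∀ x : N, ‖(r x : X) - trunc D (R x)‖ ≤ ρ + 1 := by
    intro x
    by_cases hx : x ∈ A
    · rw [hrA x hx, trunc_of_le (hDa x hx), norm_sub_rev]
      linarith [hRA x hx]
    · rw [hrn x hx]
      have h1 : ‖pi (q x) - q x‖ ≤ ρ := by rw [norm_sub_rev]; exact hpi _
      have h2 : ‖q x - trunc D (R x)‖ ≤ 1 := by rw [norm_sub_rev]; exact (hq x).le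
      have h3 : ‖pi (q x) - trunc D (R x)‖ ≤ ‖pi (q x) - q x‖ + ‖q x - trunc D (R x)‖ :=
        norm_sub_le_norm_sub_add_norm_sub _ _ _
      change ‖pi (q x) - trunc D (R x)‖ ≤ ρ + 1
      linarith
  refine ⟨r, ?_, hrA, ?_⟩
  · refine ((A.finite_toSet).union (hTfin.image fun t => (⟨pi t, hpiN t⟩ : N))).subset ?_
    rintro _ ⟨x, rfl⟩
    by_cases hx : x ∈ A
    · left
      rw [hrA x hx]
      exact hx
    · right
      rw [hrn x hx]
      exact ⟨q x, hqT x, rfl⟩
  · intro x y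
    by_cases hxy : x = y
    · subst hxy; simp
    · have hne : (x : X) ≠ y := fun h => hxy (Subtype.ext h)
      have hθxy := hsep x x.2 y y.2 hne
      rw [Subtype.dist_eq, Subtype.dist_eq, dist_eq_norm, dist_eq_norm]
      set d := ‖(x : X) - y‖ with hd
      have h1 := hnear x
      have h2 := hnear y
      have h3 : ‖trunc D (R x) - trunc D (R y)‖ ≤ 2 * (lam * (d + 1)) :=
        (trunc_lip hD0.le _ _).trans (by linarith [hlip x y])
      have h4 : ‖(r x : X) - r y‖ ≤ ‖(r x : X) - trunc D (R x)‖ +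
          ‖trunc D (R x) - trunc D (R y)‖ + ‖trunc D (R y) - r y‖ := by
        have e := norm_sub_le_norm_sub_add_norm_sub ((r x : X)) (trunc D (R x)) (r y)
        have e2 := norm_sub_le_norm_sub_add_norm_sub (trunc D (R x)) (trunc D (R y)) ((r y : N) : X)
        linarith
      rw [norm_sub_rev (trunc D (R y))] at h4
      have h5 : 1 ≤ d / θ := by rw [le_div_iff₀ hθ]; linarith
      have h6 : (2 * (ρ + 1) / θ + 2 * lam + 2 * lam / θ) * d =
          2 * (ρ + 1) * (d / θ) + 2 * lam * d + 2 * lam * (d / θ) := by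
        field_simp
      rw [h6]
      have h7 : 2 * (ρ + 1) * 1 ≤ 2 * (ρ + 1) * (d / θ) :=
        mul_le_mul_of_nonneg_left h5 (by linarith)
      have h8 : 2 * lam * 1 ≤ 2 * lam * (d / θ) :=
        mul_le_mul_of_nonneg_left h5 (by linarith)
      nlinarith

/-- If `X` has the coarse bounded approximation property, `F(N)` has the BAP for every net `N`. -/
theorem bap_free_of_coarse {N : Set X} (hN : IsNet N) (o : N) (h : CoarseBAP X) :
    HasBAP (FreeSpace o) := by
  classical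
  obtain ⟨θ, hθ, ρ, hsep, hdense⟩ := hN
  obtain ⟨lam, hlam⟩ := h
  have hρ : 0 ≤ ρ := by
    obtain ⟨x, _, hx⟩ := hdense 0
    exact (norm_nonneg _).trans hx
  set Λ := |lam| with hΛdef
  have hΛ : 0 ≤ Λ := abs_nonneg lam
  set L := 2 * (ρ + 1) / θ + 2 * Λ + 2 * Λ / θ with hLdef
  have hL : 0 ≤ L := by positivity
  refine ⟨L, fun C hC ε hε => ?_⟩
  set ε' := ε / (L + 1) with hε'def
  have hL1 : 0 < L + 1 := by linarith
  have hε' : 0 < ε' := div_pos hε hL1
  obtain ⟨T0, _, hT0fin, hcov⟩ := hC.finite_cover_balls (half_pos hε')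
  have happrox : ∀ t : FreeSpace o, ∃ v : StrongDual ℝ (Lip0 o), ∃ A : Finset N,
      v ∈ Submodule.span ℝ (delta o '' (A : Set N)) ∧ ‖t.1 - v‖ < ε' / 2 := by
    intro t
    have ht : t.1 ∈ closure (Submodule.span ℝ (range (delta o)) : Set (StrongDual ℝ (Lip0 o))) :=
      t.2
    obtain ⟨v, hv, hd⟩ := Metric.mem_closure_iff.1 ht (ε' / 2) (half_pos hε')
    obtain ⟨A, hA⟩ := exists_finset_of_mem_span hv
    exact ⟨v, A, hA, by rwa [dist_eq_norm] at hd⟩
  choose v A hvA hv using happrox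
  let A' : Finset N := insert o (hT0fin.toFinset.biUnion A)
  obtain ⟨R, hRfd, hRlip, hRc⟩ := hlam ((fun a : N => (a : X)) '' (A' : Set N))
    ((A'.finite_toSet.image _).isCompact) 1 one_pos
  have hRlip' : ∀ x y, ‖R x - R y‖ ≤ Λ * (‖x - y‖ + 1) := fun x y =>
    (hRlip x y).trans (mul_le_mul_of_nonneg_right (le_abs_self _) (by positivity))
  obtain ⟨r, hrfin, hrA, hrlip⟩ := exists_retraction hθ hΛ hsep hdense R hRfd hRlip' A'
    (fun a ha => hRc a ⟨a, ha, rfl⟩)
  have hro : r o = o := hrA o (Finset.mem_insert_self _ _)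
  obtain ⟨T, hTfd, hTnorm, hT⟩ := exists_op r hro L hL hrlip hrfin
  refine ⟨T, hTfd, hTnorm, fun u hu => ?_⟩
  obtain ⟨t, ht, hut⟩ := mem_iUnion₂.1 (hcov hu)
  set rhat := adj (pull r hro L hL hrlip) with hrhat
  have hspanfix : ∀ w ∈ Submodule.span ℝ (delta o '' (A' : Set N)), rhat w = w := by
    intro w hw
    induction hw using Submodule.span_induction with
    | mem x hx =>
      obtain ⟨a, ha, rfl⟩ := hx
      rw [hrhat, adj_pull_delta, hrA a ha]
    | zero => exact map_zero _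
    | add x y _ _ hx hy => rw [map_add, hx, hy]
    | smul c x _ hx => rw [map_smul, hx]
  have hsub : (A t : Set N) ⊆ A' := by
    intro a ha
    refine Finset.mem_insert_of_mem (Finset.mem_biUnion.2 ⟨t, ?_, ha⟩)
    exact hT0fin.mem_toFinset.2 ht
  have hfix : rhat (v t) = v t :=
    hspanfix _ (Submodule.span_mono (image_mono hsub) (hvA t))
  have h1 : ‖u.1 - v t‖ < ε' := by
    have h2 : ‖u - t‖ < ε' / 2 := by simpa [dist_eq_norm] using hut
    have h3 : ‖u.1 - t.1‖ = ‖u - t‖ := rfl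
    have h4 := hv t
    have h5 : ‖u.1 - v t‖ ≤ ‖u.1 - t.1‖ + ‖t.1 - v t‖ := norm_sub_le_norm_sub_add_norm_sub _ _ _
    linarith
  have hrn : ‖rhat‖ ≤ L := (adj_norm_le _).trans (pull_norm_le r hro L hL hrlip)
  have e : ‖T u - u‖ = ‖rhat u.1 - u.1‖ := by
    rw [← hT u]; rfl
  rw [e]
  have e2 : rhat u.1 - u.1 = rhat (u.1 - v t) + (v t - u.1) := by
    rw [map_sub, hfix]; abel
  rw [e2]
  have h6 : ‖rhat (u.1 - v t)‖ ≤ L * ‖u.1 - v t‖ :=
    (rhat.le_opNorm _).trans (mul_le_mul_of_nonneg_right hrn (norm_nonneg _))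
  have h7 : ‖v t - u.1‖ = ‖u.1 - v t‖ := norm_sub_rev _ _
  have h8 : (L + 1) * ε' = ε := by rw [hε'def]; field_simp
  calc ‖rhat (u.1 - v t) + (v t - u.1)‖ ≤ ‖rhat (u.1 - v t)‖ + ‖v t - u.1‖ := norm_add_le _ _
    _ ≤ (L + 1) * ‖u.1 - v t‖ := by rw [h7]; linarith
    _ < (L + 1) * ε' := mul_lt_mul_of_pos_left h1 hL1
    _ = ε := h8

/-! ### The barycentre map -/

/-- The dual of `X`, as a normed space of its own. -/
def DualX (X : Type*) [NormedAddCommGroup X] [NormedSpace ℝ X] : Type _ := StrongDual ℝ X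

instance : NormedAddCommGroup (DualX X) := inferInstanceAs (NormedAddCommGroup (StrongDual ℝ X))
instance : NormedSpace ℝ (DualX X) := inferInstanceAs (NormedSpace ℝ (StrongDual ℝ X))

/-- An element of `DualX X` as a functional. -/
def DualX.app (φ : DualX X) : StrongDual ℝ X := φ

/-- Restriction of linear functionals to the translated net. -/
def res {N : Set X} (o : N) : DualX X →L[ℝ] Lip0 o :=
  LinearMap.mkContinuous
    { toFun := fun φ => ⟨fun y : N => φ.app (y.1 - o.1), by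
          refine ⟨by simp, ‖φ.app‖₊, LipschitzWith.of_dist_le_mul fun x y => ?_⟩
          rw [Real.dist_eq, ← map_sub, Subtype.dist_eq, dist_eq_norm,
            show x.1 - o.1 - (y.1 - o.1) = x.1 - y.1 by abel]
          exact φ.app.le_opNorm _⟩
      map_add' := fun _ _ => rfl
      map_smul' := fun _ _ => rfl } 1
    (fun φ => by
      rw [one_mul]
      refine Lip0.norm_le_of _ (norm_nonneg _) fun x y => ?_
      change |φ.app (x.1 - o.1) - φ.app (y.1 - o.1)| ≤ ‖φ.app‖ * dist x y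
      rw [← map_sub, Subtype.dist_eq, dist_eq_norm,
        show x.1 - o.1 - (y.1 - o.1) = x.1 - y.1 by abel]
      exact φ.app.le_opNorm _)

lemma res_norm_le {N : Set X} (o : N) : ‖res o‖ ≤ 1 :=
  LinearMap.mkContinuous_norm_le _ zero_le_one _

/-- Evaluation at `x`, a functional on the dual. -/
def evalX (x : X) : StrongDual ℝ (DualX X) :=
  LinearMap.mkContinuous
    { toFun := fun φ => φ.app x, map_add' := fun _ _ => rfl, map_smul' := fun _ _ => rfl } ‖x‖
    (fun φ => by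
      change ‖φ.app x‖ ≤ ‖x‖ * ‖φ.app‖
      rw [mul_comm]; exact φ.app.le_opNorm x)

/-- The canonical isometric embedding of `X` into its bidual. -/
def jjX : X →ₗᵢ[ℝ] StrongDual ℝ (DualX X) where
  toFun := evalX
  map_add' x y := by ext φ; exact map_add φ.app x y
  map_smul' c x := by ext φ; exact map_smul φ.app c x
  norm_map' x := by
    apply le_antisymm (LinearMap.mkContinuous_norm_le _ (norm_nonneg _) _)
    refine NormedSpace.norm_le_dual_bound ℝ x (norm_nonneg _) fun f => ?_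
    exact (evalX x).le_opNorm (f : DualX X)

lemma exists_bary {Y : Type*} [NormedAddCommGroup Y] [NormedSpace ℝ Y] [CompleteSpace X]
    (jj : X →ₗᵢ[ℝ] Y) {N : Set X} (o : N) (Q : StrongDual ℝ (Lip0 o) →L[ℝ] Y)
    (hQδ : ∀ x : N, Q (delta o x) = jj (x.1 - o.1)) (u : FreeSpace o) :
    ∃ x : X, jj x = Q u.1 := by
  let J : Submodule ℝ Y := LinearMap.range jj.toLinearMap
  have hJ : IsClosed (J : Set Y) := by
    have : (J : Set Y) = range (jj : X → Y) := by
      ext z; simp [J]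
    rw [this]
    exact jj.isometry.isUniformInducing.isComplete_range.isClosed
  have hspan : Submodule.span ℝ (range (delta o)) ≤
      J.comap (Q : StrongDual ℝ (Lip0 o) →ₗ[ℝ] Y) := by
    rw [Submodule.span_le]
    rintro _ ⟨x, rfl⟩
    exact ⟨x.1 - o.1, (hQδ x).symm⟩
  have hF : freeSubmodule o ≤ J.comap (Q : StrongDual ℝ (Lip0 o) →ₗ[ℝ] Y) :=
    Submodule.topologicalClosure_minimal _ hspan (hJ.preimage Q.continuous)
  obtain ⟨x, hx⟩ := hF u.2
  exact ⟨x, hx⟩

/-- If `F(N)` has the BAP for a net `N` of a Banach space `X`, then `X` has the coarse bounded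
approximation property; the bidual of `X` is replaced by any space `Y` with suitable maps. -/
theorem coarse_of_bap_free_aux {Y : Type*} [NormedAddCommGroup Y] [NormedSpace ℝ Y] [CompleteSpace X]
    (jj : X →ₗᵢ[ℝ] Y) {N : Set X} (hN : IsNet N) (o : N) (Q : StrongDual ℝ (Lip0 o) →L[ℝ] Y)
    (hQ : ‖Q‖ ≤ 1) (hQδ : ∀ x : N, Q (delta o x) = jj (x.1 - o.1))
    (h : HasBAP (FreeSpace o)) : CoarseBAP X := by
  classical
  obtain ⟨θ, hθ, ρ, hsep, hdense⟩ := hN
  obtain ⟨lam, hlam⟩ := h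
  have hρ : 0 ≤ ρ := by
    obtain ⟨x, _, hx⟩ := hdense 0
    exact (norm_nonneg _).trans hx
  choose pi hpiN hpi using hdense
  let P : X → N := fun y => ⟨pi y, hpiN y⟩
  choose q hq using exists_bary jj o Q hQδ
  have hqlip : ∀ u v : FreeSpace o, ‖q u - q v‖ ≤ ‖u - v‖ := by
    intro u v
    have h1 : ‖q u - q v‖ = ‖Q (u.1 - v.1)‖ := by
      rw [← jj.norm_map, map_sub, hq, hq, map_sub]
    rw [h1]
    calc ‖Q (u.1 - v.1)‖ ≤ ‖Q‖ * ‖u.1 - v.1‖ := Q.le_opNorm _
      _ ≤ 1 * ‖u.1 - v.1‖ := mul_le_mul_of_nonneg_right hQ (norm_nonneg _)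
      _ = ‖u - v‖ := by rw [one_mul]; rfl
  have hqδ : ∀ x : N, q (ofPoint o x) = x.1 - o.1 := by
    intro x
    apply jj.injective
    rw [hq]
    exact hQδ x
  set Λ := |lam| with hΛdef
  have hΛ : 0 ≤ Λ := abs_nonneg lam
  refine ⟨Λ, fun C hC η hη => ?_⟩
  set B : ℝ := 2 * ρ + ‖(o : X)‖ + 2 with hB
  have hB0 : 0 < B := by positivity
  have hΛ1 : 0 < Λ + 1 := by linarith
  set s : ℝ := η / (3 * (Λ + 1) * B) with hs
  have hs0 : 0 < s := by positivity
  have hsB : s * (3 * (Λ + 1) * B) = η := by rw [hs]; field_simp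
  set t : ℝ := s⁻¹ with ht
  have hst : s * t = 1 := mul_inv_cancel₀ hs0.ne'
  have ht0 : 0 < t := inv_pos.2 hs0
  set η' : ℝ := η / (3 * (Λ + 1)) with hη'
  have hη'0 : 0 < η' := by positivity
  have hη'B : η' * (3 * (Λ + 1)) = η := by rw [hη']; field_simp
  obtain ⟨A0, _, hA0fin, hcov⟩ := hC.finite_cover_balls hη'0
  let U : X → FreeSpace o := fun x => ofPoint o (P (t • x))
  obtain ⟨S, hSfd, hSnorm, hS⟩ := hlam (U '' A0) (hA0fin.image _).isCompact 1 one_pos
  have hSa : ‖S‖ ≤ Λ := hSnorm.trans (le_abs_self _)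
  let R : X → X := fun x => s • q (S (U x))
  have hU : ∀ x y, ‖U x - U y‖ ≤ 2 * ρ + t * ‖x - y‖ := by
    intro x y
    have h1 : ‖U x - U y‖ = ‖delta o (P (t • x)) - delta o (P (t • y))‖ := rfl
    rw [h1]
    refine (delta_sub_norm _ _).trans ?_
    rw [Subtype.dist_eq, dist_eq_norm]
    change ‖pi (t • x) - pi (t • y)‖ ≤ _
    have h2 : ‖pi (t • x) - t • x‖ ≤ ρ := by rw [norm_sub_rev]; exact hpi _
    have h3 := hpi (t • y)
    have h4 : ‖t • x - t • y‖ = t * ‖x - y‖ := by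
      rw [← smul_sub, norm_smul, Real.norm_of_nonneg ht0.le]
    have h5 := norm_sub_le_norm_sub_add_norm_sub (pi (t • x)) (t • x) (pi (t • y))
    have h6 := norm_sub_le_norm_sub_add_norm_sub (t • x) (t • y) (pi (t • y))
    linarith
  have hRlip : ∀ x y, ‖R x - R y‖ ≤ Λ * (‖x - y‖ + 2 * ρ * s) := by
    intro x y
    have h1 : R x - R y = s • (q (S (U x)) - q (S (U y))) := by
      simp only [R, smul_sub]
    rw [h1, norm_smul, Real.norm_of_nonneg hs0.le]
    have h2 : ‖q (S (U x)) - q (S (U y))‖ ≤ Λ * (2 * ρ + t * ‖x - y‖) := by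
      refine (hqlip _ _).trans ?_
      rw [← map_sub]
      refine (S.le_opNorm _).trans ?_
      exact mul_le_mul hSa (hU x y) (norm_nonneg _) hΛ
    calc s * ‖q (S (U x)) - q (S (U y))‖ ≤ s * (Λ * (2 * ρ + t * ‖x - y‖)) :=
          mul_le_mul_of_nonneg_left h2 hs0.le
      _ = Λ * ((s * t) * ‖x - y‖ + 2 * ρ * s) := by ring
      _ = Λ * (‖x - y‖ + 2 * ρ * s) := by rw [hst, one_mul]
  have hRa : ∀ a ∈ A0, ‖R a - a‖ ≤ s * (1 + ρ + ‖(o : X)‖) := by
    intro a ha
    have e : R a - a = s • (q (S (U a)) - t • a) := by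
      simp only [R, smul_sub, smul_smul, hst, one_smul]
    rw [e, norm_smul, Real.norm_of_nonneg hs0.le]
    refine mul_le_mul_of_nonneg_left ?_ hs0.le
    have h1 : ‖q (S (U a)) - q (U a)‖ ≤ 1 :=
      (hqlip _ _).trans (hS _ ⟨a, ha, rfl⟩).le
    have h2 : q (U a) - t • a = (pi (t • a) - t • a) - (o : X) := by
      have := hqδ (P (t • a))
      change q (ofPoint o (P (t • a))) - t • a = _
      rw [this]
      change pi (t • a) - (o : X) - t • a = _
      abel
    have h3 : ‖q (U a) - t • a‖ ≤ ρ + ‖(o : X)‖ := by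
      rw [h2]
      refine (norm_sub_le _ _).trans ?_
      have : ‖pi (t • a) - t • a‖ ≤ ρ := by rw [norm_sub_rev]; exact hpi _
      linarith
    have h4 := norm_sub_le_norm_sub_add_norm_sub (q (S (U a))) (q (U a)) (t • a)
    linarith
  refine ⟨R, ?_, ?_, ?_⟩
  · -- finite-dimensional range
    let Φ : FreeSpace o →ₗ[ℝ] Y :=
      { toFun := fun u => Q u.1
        map_add' := fun a b => map_add Q a.1 b.1
        map_smul' := fun c a => map_smul Q c a.1 }
    let W : Submodule ℝ Y :=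
      (LinearMap.range (S : FreeSpace o →ₗ[ℝ] FreeSpace o)).map Φ
    have hWfd : FiniteDimensional ℝ W := by
      have := hSfd
      exact Module.Finite.map _ _
    have hcomap := fd_comap jj.toLinearMap jj.injective W
    refine Submodule.finiteDimensional_of_le (S₂ := W.comap jj.toLinearMap) ?_
    rw [Submodule.span_le]
    rintro _ ⟨x, rfl⟩
    change jj (s • q (S (U x))) ∈ W
    rw [map_smul, hq]
    exact W.smul_mem _ ⟨S (U x), ⟨U x, rfl⟩, rfl⟩
  · intro x y
    refine (hRlip x y).trans (mul_le_mul_of_nonneg_left ?_ hΛ)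
    have h1 : 2 * ρ * s ≤ B * s := mul_le_mul_of_nonneg_right (by rw [hB]; linarith [norm_nonneg (o : X)]) hs0.le
    have h2 : B * s ≤ η := by
      rw [← hsB]
      have : 1 ≤ 3 * (Λ + 1) := by linarith
      have h3 : 0 ≤ s * B := by positivity
      nlinarith
    linarith
  · intro c hc
    obtain ⟨a, ha, hca⟩ := mem_iUnion₂.1 (hcov hc)
    have hca' : ‖c - a‖ < η' := by simpa [dist_eq_norm] using hca
    have h1 := hRlip c a
    have h2 := hRa a ha
    have h3 : ‖R c - c‖ ≤ ‖R c - R a‖ + ‖R a - a‖ + ‖a - c‖ := by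
      have e1 := norm_sub_le_norm_sub_add_norm_sub (R c) (R a) c
      have e2 := norm_sub_le_norm_sub_add_norm_sub (R a) a c
      linarith
    have h4 : ‖a - c‖ = ‖c - a‖ := norm_sub_rev _ _
    have h5 : Λ * ‖c - a‖ ≤ Λ * η' := mul_le_mul_of_nonneg_left hca'.le hΛ
    have h6 : (Λ + 1) * η' = η / 3 := by
      rw [hη']; field_simp
    have h7 : s * ((Λ + 1) * B) = η / 3 := by
      rw [← hsB]; ring
    have h8 : 2 * ρ * Λ + 1 + ρ + ‖(o : X)‖ ≤ (Λ + 1) * B := by
      rw [hB]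
      nlinarith [mul_nonneg hΛ (norm_nonneg (o : X)), mul_nonneg hΛ hρ, norm_nonneg (o : X)]
    have h9 : s * (2 * ρ * Λ + 1 + ρ + ‖(o : X)‖) ≤ s * ((Λ + 1) * B) :=
      mul_le_mul_of_nonneg_left h8 hs0.le
    have h10 : Λ * (‖c - a‖ + 2 * ρ * s) = Λ * ‖c - a‖ + s * (2 * ρ * Λ) := by ring
    have h11 : s * (2 * ρ * Λ + 1 + ρ + ‖(o : X)‖) = s * (2 * ρ * Λ) + s * (1 + ρ + ‖(o : X)‖) := by
      ring
    have h12 : (Λ + 1) * η' = Λ * η' + η' := by ring
    rw [h4] at h3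
    rw [h10] at h1
    linarith

/-- If `F(N)` has the BAP for a net `N` of a Banach space `X`, then `X` has the coarse bounded
approximation property. -/
theorem coarse_of_bap_free [CompleteSpace X] {N : Set X} (hN : IsNet N) (o : N)
    (h : HasBAP (FreeSpace o)) : CoarseBAP X :=
  coarse_of_bap_free_aux jjX hN o (adj (res o)) ((adj_norm_le _).trans (res_norm_le o))
    (fun _ => ContinuousLinearMap.ext fun _ => rfl) h

/-- **Main theorem.** Let `N` be a net of a real Banach space `X`. The Lipschitz-free space `F(N)`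
has the BAP if and only if `X` has the coarse bounded approximation property; and the latter is
implied by the BAP of `X`. -/
theorem main [CompleteSpace X] {N : Set X} (hN : IsNet N) (o : N) :
    (HasBAP (FreeSpace o) ↔ CoarseBAP X) ∧ (HasBAP X → HasBAP (FreeSpace o)) :=
  ⟨⟨coarse_of_bap_free hN o, bap_free_of_coarse hN o⟩,
    fun h => bap_free_of_coarse hN o (coarse_of_bap h)⟩

end Banach

end

end Vale.Agent.P090
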