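import Vale.Agent.P090.Retract

/-!
# `ℓ_∞(Γ)` has the BAP with constant one
-/

namespace Vale.Agent.P090

open Set Metric

noncomputable section

variable {Γ : Type*}

/-- The composition operator `f ↦ f ∘ τ` on `ℓ_∞(Γ)`. -/
def compOp (τ : Γ → Γ) : lp (fun _ : Γ => ℝ) ⊤ →L[ℝ] lp (fun _ : Γ => ℝ) ⊤ :=
  LinearMap.mkContinuous
    { toFun := fun f => ⟨fun γ => f (τ γ), memℓp_infty ⟨‖f‖, by
          rintro _ ⟨γ, rfl⟩
          exact lp.norm_apply_le_norm (by simp) f (τ γ)⟩⟩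
      map_add' := fun _ _ => rfl
      map_smul' := fun _ _ => rfl } 1
    (fun f => by
      rw [one_mul]
      refine lp.norm_le_of_forall_le (norm_nonneg _) fun γ => ?_
      exact lp.norm_apply_le_norm (by simp) f (τ γ))

lemma compOp_apply (τ : Γ → Γ) (f : lp (fun _ : Γ => ℝ) ⊤) (γ : Γ) : compOp τ f γ = f (τ γ) := rfl

lemma compOp_norm_le (τ : Γ → Γ) : ‖compOp τ‖ ≤ 1 :=
  LinearMap.mkContinuous_norm_le _ zero_le_one _

lemma compOp_fd (τ : Γ → Γ) (hfin : (range τ).Finite) (hid : ∀ γ, τ (τ γ) = τ γ) :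
    FiniteDimensional ℝ (LinearMap.range
      (compOp τ : lp (fun _ : Γ => ℝ) ⊤ →ₗ[ℝ] lp (fun _ : Γ => ℝ) ⊤)) := by
  have : Finite (range τ) := hfin.to_subtype
  let g : LinearMap.range (compOp τ : lp (fun _ : Γ => ℝ) ⊤ →ₗ[ℝ] lp (fun _ : Γ => ℝ) ⊤) →ₗ[ℝ]
      (range τ → ℝ) :=
    { toFun := fun x s => x.1 s.1
      map_add' := fun _ _ => rfl
      map_smul' := fun _ _ => rfl }
  refine FiniteDimensional.of_injective g ?_
  rintro ⟨_, f₁, rfl⟩ ⟨_, f₂, rfl⟩ hab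
  apply Subtype.ext
  apply lp.ext
  funext γ
  have h1 : compOp τ f₁ (τ γ) = compOp τ f₂ (τ γ) := congrFun hab ⟨τ γ, γ, rfl⟩
  change f₁ (τ γ) = f₂ (τ γ)
  rw [compOp_apply, compOp_apply, hid] at h1
  exact h1

/-- `ℓ_∞(Γ)` has the BAP. -/
theorem hasBAP_lp_top (Γ : Type*) : HasBAP (lp (fun _ : Γ => ℝ) ⊤) := by
  classical
  refine ⟨1, fun C hC ε hε => ?_⟩
  rcases isEmpty_or_nonempty Γ with hΓ | ⟨⟨γ0⟩⟩
  · refine ⟨0, ?_, by simp, fun u _ => ?_⟩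
    · have : LinearMap.range ((0 : lp (fun _ : Γ => ℝ) ⊤ →L[ℝ] lp (fun _ : Γ => ℝ) ⊤) :
          lp (fun _ : Γ => ℝ) ⊤ →ₗ[ℝ] lp (fun _ : Γ => ℝ) ⊤) = ⊥ := by
        ext x; simp
      rw [this]
      infer_instance
    · have : u = 0 := lp.ext (funext fun γ => (hΓ.false γ).elim)
      simpa [this] using hε
  set δ : ℝ := ε / 5 with hδ
  have hδ0 : 0 < δ := by positivity
  obtain ⟨F, hFC, hF, hcov⟩ := hC.finite_cover_balls hδ0
  let _ : Fintype F := hF.fintype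
  obtain ⟨B, hB⟩ := hC.isBounded.exists_norm_le
  let Φ : Γ → (F → ℝ) := fun γ f => f.1 γ
  have hΦ : ∀ γ, Φ γ ∈ closedBall (0 : F → ℝ) |B| := by
    intro γ
    rw [mem_closedBall_zero_iff, pi_norm_le_iff_of_nonneg (abs_nonneg _)]
    intro f
    exact (lp.norm_apply_le_norm (by simp) f.1 γ).trans ((hB _ (hFC f.2)).trans (le_abs_self _))
  obtain ⟨T, _, hTfin, hTcov⟩ := (isCompact_closedBall (0 : F → ℝ) |B|).finite_cover_balls hδ0
  have key : ∀ γ, ∃ t ∈ T, ‖Φ γ - t‖ < δ := by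
    intro γ
    obtain ⟨t, ht, hzt⟩ := mem_iUnion₂.1 (hTcov (hΦ γ))
    exact ⟨t, ht, by simpa [dist_eq_norm] using hzt⟩
  choose c hcT hc using key
  let pick : (F → ℝ) → Γ := fun d => if h : ∃ x, c x = d then h.choose else γ0
  have hpick : ∀ γ, c (pick (c γ)) = c γ := by
    intro γ
    have h : ∃ x, c x = c γ := ⟨γ, rfl⟩
    have e : pick (c γ) = h.choose := dif_pos h
    rw [e]
    exact h.choose_spec
  let τ : Γ → Γ := fun γ => pick (c γ)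
  have hid : ∀ γ, τ (τ γ) = τ γ := fun γ => by
    change pick (c (pick (c γ))) = pick (c γ)
    rw [hpick]
  have hfin : (range τ).Finite := by
    refine (hTfin.image pick).subset ?_
    rintro _ ⟨γ, rfl⟩
    exact ⟨c γ, hcT γ, rfl⟩
  refine ⟨compOp τ, compOp_fd τ hfin hid, compOp_norm_le τ, fun u hu => ?_⟩
  obtain ⟨f, hf, huf⟩ := mem_iUnion₂.1 (hcov hu)
  have huf' : ‖u - f‖ < δ := by simpa [dist_eq_norm] using huf
  have hTf : ‖compOp τ f - f‖ ≤ 2 * δ := by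
    refine lp.norm_le_of_forall_le (by positivity) fun γ => ?_
    change ‖f (τ γ) - f γ‖ ≤ 2 * δ
    have h1 : ‖Φ (τ γ) - c γ‖ < δ := by
      have := hc (τ γ)
      rwa [show c (τ γ) = c γ from hpick γ] at this
    have h2 := hc γ
    have h3 : ‖Φ (τ γ) - Φ γ‖ < 2 * δ := by
      have h4 := norm_sub_le_norm_sub_add_norm_sub (Φ (τ γ)) (c γ) (Φ γ)
      rw [norm_sub_rev (c γ)] at h4
      linarith
    have h5 : ‖(Φ (τ γ) - Φ γ) ⟨f, hf⟩‖ ≤ ‖Φ (τ γ) - Φ γ‖ := norm_le_pi_norm _ _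
    have h6 : ‖f (τ γ) - f γ‖ = ‖(Φ (τ γ) - Φ γ) ⟨f, hf⟩‖ := rfl
    linarith
  have h7 : ‖compOp τ u - compOp τ f‖ ≤ ‖u - f‖ := by
    rw [← map_sub]
    calc ‖compOp τ (u - f)‖ ≤ ‖compOp τ‖ * ‖u - f‖ := (compOp τ).le_opNorm _
      _ ≤ 1 * ‖u - f‖ := mul_le_mul_of_nonneg_right (compOp_norm_le τ) (norm_nonneg _)
      _ = ‖u - f‖ := one_mul _
  have h8 := norm_sub_le_norm_sub_add_norm_sub (compOp τ u) (compOp τ f) u
  have h9 := norm_sub_le_norm_sub_add_norm_sub (compOp τ f) f u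
  rw [norm_sub_rev f u] at h9
  have h10 : 5 * δ = ε := by rw [hδ]; ring
  linarith

end

end Vale.Agent.P090
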