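import Vale.Agent.P090.Free

/-!
# `F(M)` for coarse-Lipschitz retracts of Banach spaces

A uniformly discrete metric space which is a coarse-Lipschitz retract of a normed space with the
coarse bounded approximation property has a Lipschitz-free space with the BAP.
-/

namespace Vale.Agent.P090

open Set Metric

noncomputable section

variable {X : Type*} [NormedAddCommGroup X] [NormedSpace ℝ X] {M : Type*} [MetricSpace M]

/-- `M` is a coarse-Lipschitz retract of the normed space `X`, with constant `K`, through the maps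
`e : M → X` and `p : X → M`. -/
structure IsCoarseRetract (e : M → X) (p : X → M) (K : ℝ) : Prop where
  nonneg : 0 ≤ K
  lip_e : ∀ x y, ‖e x - e y‖ ≤ K * (dist x y + 1)
  lip_p : ∀ u v, dist (p u) (p v) ≤ K * (‖u - v‖ + 1)
  near : ∀ x, dist (p (e x)) x ≤ K

/-- The quantisation step for coarse retracts. -/
lemma exists_retraction_gen {θ lam K : ℝ} {e : M → X} {p : X → M} (hθ : 0 < θ) (hlam : 0 ≤ lam)
    (hsep : ∀ x y : M, x ≠ y → θ ≤ dist x y) (hr : IsCoarseRetract e p K)
    (R : X → X) (hfd : FiniteDimensional ℝ (Submodule.span ℝ (range R)))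
    (hlip : ∀ x y, ‖R x - R y‖ ≤ lam * (‖x - y‖ + 1)) (A : Finset M)
    (hRA : ∀ a ∈ A, ‖R (e a) - e a‖ ≤ 1) :
    ∃ r : M → M, (range r).Finite ∧ (∀ a ∈ A, r a = a) ∧
      ∀ x y, dist (r x) (r y) ≤
        ((11 * K + 2 * lam * K + 2 * lam * K ^ 2) / θ + 2 * lam * K ^ 2) * dist x y := by
  classical
  have hK := hr.nonneg
  set D : ℝ := (∑ a ∈ A, ‖R (e a)‖) + 1 with hD
  have hD0 : 0 < D := by
    have : 0 ≤ ∑ a ∈ A, ‖R (e a)‖ := Finset.sum_nonneg fun _ _ => norm_nonneg _
    linarith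
  have hDa : ∀ a ∈ A, ‖R (e a)‖ ≤ D := by
    intro a ha
    have : ‖R (e a)‖ ≤ ∑ a ∈ A, ‖R (e a)‖ :=
      Finset.single_le_sum (f := fun a : M => ‖R (e a)‖) (fun _ _ => norm_nonneg _) ha
    linarith
  let Z := Submodule.span ℝ (range R)
  have : FiniteDimensional ℝ Z := hfd
  have : ProperSpace Z := FiniteDimensional.proper_real Z
  have hBc : IsCompact (Subtype.val '' closedBall (0 : Z) D) :=
    (isCompact_closedBall (0 : Z) D).image continuous_subtype_val
  obtain ⟨T, _, hTfin, hcov⟩ := hBc.finite_cover_balls (zero_lt_one)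
  have key : ∀ x : M, ∃ t ∈ T, ‖trunc D (R (e x)) - t‖ < 1 := by
    intro x
    have hmem : trunc D (R (e x)) ∈ Z := trunc_mem Z D (Submodule.subset_span ⟨e x, rfl⟩)
    have hin : trunc D (R (e x)) ∈ Subtype.val '' closedBall (0 : Z) D := by
      refine ⟨⟨_, hmem⟩, ?_, rfl⟩
      rw [mem_closedBall_zero_iff]
      exact trunc_norm hD0.le _
    obtain ⟨t, ht, hzt⟩ := mem_iUnion₂.1 (hcov hin)
    exact ⟨t, ht, by simpa [dist_eq_norm] using hzt⟩
  choose q hqT hq using key
  let r : M → M := fun x => if x ∈ A then x else p (q x)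
  have hrA : ∀ a ∈ A, r a = a := fun a ha => if_pos ha
  have hrn : ∀ x, x ∉ A → r x = p (q x) := fun x hx => if_neg hx
  have hnear : ∀ x, dist (r x) (p (q x)) ≤ 4 * K := by
    intro x
    by_cases hx : x ∈ A
    · rw [hrA x hx]
      have h1 : ‖e x - R (e x)‖ ≤ 1 := by rw [norm_sub_rev]; exact hRA x hx
      have h2 : ‖R (e x) - q x‖ ≤ 1 := by
        have := (hq x).le
        rwa [trunc_of_le (hDa x hx)] at this
      have h3 : ‖e x - q x‖ ≤ 2 := by
        have := norm_sub_le_norm_sub_add_norm_sub (e x) (R (e x)) (q x)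
        linarith
      have h4 : dist (p (e x)) (p (q x)) ≤ K * 3 :=
        (hr.lip_p _ _).trans (mul_le_mul_of_nonneg_left (by linarith) hK)
      have h5 : dist x (p (e x)) ≤ K := by rw [dist_comm]; exact hr.near x
      have h6 := dist_triangle x (p (e x)) (p (q x))
      linarith
    · rw [hrn x hx, dist_self]
      positivity
  have hfar : ∀ x y, dist (p (q x)) (p (q y)) ≤
      K * (2 * (lam * (K * (dist x y + 1) + 1)) + 3) := by
    intro x y
    refine (hr.lip_p _ _).trans (mul_le_mul_of_nonneg_left ?_ hK)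
    have h1 : ‖q x - trunc D (R (e x))‖ ≤ 1 := by rw [norm_sub_rev]; exact (hq x).le
    have h2 : ‖trunc D (R (e y)) - q y‖ ≤ 1 := (hq y).le
    have h3 : ‖trunc D (R (e x)) - trunc D (R (e y))‖ ≤ 2 * ‖R (e x) - R (e y)‖ :=
      trunc_lip hD0.le _ _
    have h4 : ‖R (e x) - R (e y)‖ ≤ lam * (K * (dist x y + 1) + 1) :=
      (hlip _ _).trans (mul_le_mul_of_nonneg_left (by linarith [hr.lip_e x y]) hlam)
    have h5 := norm_sub_le_norm_sub_add_norm_sub (q x) (trunc D (R (e x))) (q y)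
    have h6 := norm_sub_le_norm_sub_add_norm_sub (trunc D (R (e x))) (trunc D (R (e y))) (q y)
    linarith
  refine ⟨r, ?_, hrA, ?_⟩
  · refine ((A.finite_toSet).union (hTfin.image p)).subset ?_
    rintro _ ⟨x, rfl⟩
    by_cases hx : x ∈ A
    · left
      rw [hrA x hx]
      exact hx
    · right
      rw [hrn x hx]
      exact ⟨q x, hqT x, rfl⟩
  · intro x y
    by_cases hxy : x = y
    · subst hxy; simp
    · have hθxy := hsep x y hxy
      set d := dist x y with hd
      have h1 := hnear x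
      have h2 : dist (p (q y)) (r y) ≤ 4 * K := by rw [dist_comm]; exact hnear y
      have h3 := hfar x y
      have h4 : dist (r x) (r y) ≤ dist (r x) (p (q x)) + dist (p (q x)) (p (q y)) +
          dist (p (q y)) (r y) := dist_triangle4 _ _ _ _
      have h5 : 1 ≤ d / θ := by rw [le_div_iff₀ hθ]; linarith
      have h6 : ((11 * K + 2 * lam * K + 2 * lam * K ^ 2) / θ + 2 * lam * K ^ 2) * d =
          (11 * K + 2 * lam * K + 2 * lam * K ^ 2) * (d / θ) + 2 * lam * K ^ 2 * d := by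
        field_simp
      rw [h6]
      have h7 : (11 * K + 2 * lam * K + 2 * lam * K ^ 2) * 1 ≤
          (11 * K + 2 * lam * K + 2 * lam * K ^ 2) * (d / θ) :=
        mul_le_mul_of_nonneg_left h5 (by positivity)
      have h8 : K * (2 * (lam * (K * (d + 1) + 1)) + 3) =
          3 * K + 2 * lam * K + 2 * lam * K ^ 2 + 2 * lam * K ^ 2 * d := by ring
      linarith

/-- A uniformly discrete metric space which is a coarse-Lipschitz retract of a normed space with
the coarse bounded approximation property has a Lipschitz-free space with the BAP. -/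
theorem bap_free_of_coarse_retract {θ K : ℝ} {e : M → X} {p : X → M} (o : M) (hθ : 0 < θ)
    (hsep : ∀ x y : M, x ≠ y → θ ≤ dist x y) (hr : IsCoarseRetract e p K) (h : CoarseBAP X) :
    HasBAP (FreeSpace o) := by
  classical
  obtain ⟨lam, hlam⟩ := h
  have hK := hr.nonneg
  set Λ := |lam| with hΛdef
  have hΛ : 0 ≤ Λ := abs_nonneg lam
  set L := (11 * K + 2 * Λ * K + 2 * Λ * K ^ 2) / θ + 2 * Λ * K ^ 2 with hLdef
  have hL : 0 ≤ L := by positivity
  refine ⟨L, fun C hC ε hε => ?_⟩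
  set ε' := ε / (L + 1) with hε'def
  have hL1 : 0 < L + 1 := by linarith
  have hε' : 0 < ε' := div_pos hε hL1
  obtain ⟨T0, _, hT0fin, hcov⟩ := hC.finite_cover_balls (half_pos hε')
  have happrox : ∀ t : FreeSpace o, ∃ v : StrongDual ℝ (Lip0 o), ∃ A : Finset M,
      v ∈ Submodule.span ℝ (delta o '' (A : Set M)) ∧ ‖t.1 - v‖ < ε' / 2 := by
    intro t
    have ht : t.1 ∈ closure (Submodule.span ℝ (range (delta o)) : Set (StrongDual ℝ (Lip0 o))) :=
      t.2
    obtain ⟨v, hv, hd⟩ := Metric.mem_closure_iff.1 ht (ε' / 2) (half_pos hε')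
    obtain ⟨A, hA⟩ := exists_finset_of_mem_span hv
    exact ⟨v, A, hA, by rwa [dist_eq_norm] at hd⟩
  choose v A hvA hv using happrox
  let A' : Finset M := insert o (hT0fin.toFinset.biUnion A)
  obtain ⟨R, hRfd, hRlip, hRc⟩ := hlam (e '' (A' : Set M))
    ((A'.finite_toSet.image _).isCompact) 1 one_pos
  have hRlip' : ∀ x y, ‖R x - R y‖ ≤ Λ * (‖x - y‖ + 1) := fun x y =>
    (hRlip x y).trans (mul_le_mul_of_nonneg_right (le_abs_self _) (by positivity))
  obtain ⟨r, hrfin, hrA, hrlip⟩ := exists_retraction_gen hθ hΛ hsep hr R hRfd hRlip' A'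
    (fun a ha => hRc _ ⟨a, ha, rfl⟩)
  have hro : r o = o := hrA o (Finset.mem_insert_self _ _)
  obtain ⟨T, hTfd, hTnorm, hT⟩ := exists_op r hro L hL hrlip hrfin
  refine ⟨T, hTfd, hTnorm, fun u hu => ?_⟩
  obtain ⟨t, ht, hut⟩ := mem_iUnion₂.1 (hcov hu)
  set rhat := adj (pull r hro L hL hrlip) with hrhat
  have hspanfix : ∀ w ∈ Submodule.span ℝ (delta o '' (A' : Set M)), rhat w = w := by
    intro w hw
    induction hw using Submodule.span_induction with
    | mem x hx =>
      obtain ⟨a, ha, rfl⟩ := hx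
      rw [hrhat, adj_pull_delta, hrA a ha]
    | zero => exact map_zero _
    | add x y _ _ hx hy => rw [map_add, hx, hy]
    | smul c x _ hx => rw [map_smul, hx]
  have hsub : (A t : Set M) ⊆ A' := by
    intro a ha
    refine Finset.mem_insert_of_mem (Finset.mem_biUnion.2 ⟨t, ?_, ha⟩)
    exact hT0fin.mem_toFinset.2 ht
  have hfix : rhat (v t) = v t :=
    hspanfix _ (Submodule.span_mono (image_mono hsub) (hvA t))
  have h1 : ‖u.1 - v t‖ < ε' := by
    have h2 : ‖u - t‖ < ε' / 2 := by simpa [dist_eq_norm] using hut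
    have h3 : ‖u.1 - t.1‖ = ‖u - t‖ := rfl
    have h4 := hv t
    have h5 : ‖u.1 - v t‖ ≤ ‖u.1 - t.1‖ + ‖t.1 - v t‖ := norm_sub_le_norm_sub_add_norm_sub _ _ _
    linarith
  have hrn : ‖rhat‖ ≤ L := (adj_norm_le _).trans (pull_norm_le r hro L hL hrlip)
  have e1 : ‖T u - u‖ = ‖rhat u.1 - u.1‖ := by
    rw [← hT u]; rfl
  rw [e1]
  have e2 : rhat u.1 - u.1 = rhat (u.1 - v t) + (v t - u.1) := by
    rw [map_sub, hfix]; abel
  rw [e2]
  have h6 : ‖rhat (u.1 - v t)‖ ≤ L * ‖u.1 - v t‖ :=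
    (rhat.le_opNorm _).trans (mul_le_mul_of_nonneg_right hrn (norm_nonneg _))
  have h7 : ‖v t - u.1‖ = ‖u.1 - v t‖ := norm_sub_rev _ _
  have h8 : (L + 1) * ε' = ε := by rw [hε'def]; field_simp
  calc ‖rhat (u.1 - v t) + (v t - u.1)‖ ≤ ‖rhat (u.1 - v t)‖ + ‖v t - u.1‖ := norm_add_le _ _
    _ ≤ (L + 1) * ‖u.1 - v t‖ := by rw [h7]; linarith
    _ < (L + 1) * ε' := mul_lt_mul_of_pos_left h1 hL1
    _ = ε := h8

end

end Vale.Agent.P090
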